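import Vale.Agent.P015.Lines

/-!
No infinite bounded-step path of Gaussian primes near finitely many polynomial curves and
straight lines of arbitrary real slope.
-/

namespace Vale.Agent.Results.P015.PolynomialStrips

theorem result : ∀ (D w : ℝ) (S : Finset (Polynomial ℤ)) (T : Finset (ℝ × ℝ × ℝ)),
    (∀ l ∈ T, l.1 ≠ 0 ∨ l.2.1 ≠ 0) →
    ¬∃ z : ℕ → GaussianInt, Function.Injective z ∧ (∀ n, Prime (z n)) ∧
      (∀ n, √((((z (n + 1)).re : ℝ) - (z n).re) ^ 2 + (((z (n + 1)).im : ℝ) - (z n).im) ^ 2) ≤ D) ∧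
      ∀ n, (∃ f ∈ S, |((z n).im : ℝ) - ((f.eval (z n).re : ℤ) : ℝ)| ≤ w) ∨
        ∃ l ∈ T, |l.1 * ((z n).re : ℝ) + l.2.1 * ((z n).im : ℝ) - l.2.2| ≤ w := by
  rintro D w S T hT ⟨z, hz, hp, hd, hc⟩
  refine Vale.Agent.P015.no_path_lines S T hT |w| (abs_nonneg w) ⌈D⌉₊ z hz hp
    (fun n => ?_) (fun n => ?_) fun n => ?_
  · have h : (|(z (n + 1)).re - (z n).re| : ℝ) ≤ ⌈D⌉₊ := by
      refine le_trans ?_ ((hd n).trans (Nat.le_ceil D))
      rw [← Real.sqrt_sq_eq_abs]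
      exact Real.sqrt_le_sqrt (le_add_of_nonneg_right (sq_nonneg _))
    exact_mod_cast h
  · have h : (|(z (n + 1)).im - (z n).im| : ℝ) ≤ ⌈D⌉₊ := by
      refine le_trans ?_ ((hd n).trans (Nat.le_ceil D))
      rw [← Real.sqrt_sq_eq_abs]
      exact Real.sqrt_le_sqrt (le_add_of_nonneg_left (sq_nonneg _))
    exact_mod_cast h
  · exact (hc n).imp (fun ⟨f, hf, h⟩ => ⟨f, hf, h.trans (le_abs_self w)⟩)
      fun ⟨l, hl, h⟩ => ⟨l, hl, h.trans (le_abs_self w)⟩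

end Vale.Agent.Results.P015.PolynomialStrips
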